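import Vale.Agent.P180.Defs
import Vale.Agent.P180.Bdl.B2

namespace Vale.Agent.Results.P180.NormalClosureFactors

open Vale.Agent.P180

universe u

/-- Fix `p`, `k` and bounds `n`, `m`. There is a finite list of blocks of finite groups such that
the following holds for every finite group `G`. Let `b` be a block of `kG` with a defect group `D`
of order at most `n`, and let `M` be the normal closure of `D` in `G`. Suppose that there is a
normal subgroup `N` of `G` such that `D ∩ N` is central in `N` (for instance `N = 1`) and every
composition factor of `M N / N` of order divisible by `p` has order at most `m`. Then the block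
algebra `kGb` is Morita equivalent to a member of the list. -/
theorem result (k : Type u) [Field k] [IsAlgClosed k] (p : ℕ) [Fact p.Prime] [CharP k p]
    (n m : ℕ) :
    ∃ (r : ℕ) (H : Fin r → Type) (_ : ∀ i, Group (H i)) (_ : ∀ i, Finite (H i))
      (c : ∀ i, MonoidAlgebra k (H i)) (hc : ∀ i, IsBlock (c i)),
      ∀ (G : Type) [Group G] [Finite G] (b : MonoidAlgebra k G) (hb : IsBlock b)
        (D : Subgroup G), IsDefectGroup b D → Nat.card D ≤ n →
        ∀ (N : Subgroup G) [N.Normal], (∀ x ∈ D, x ∈ N → ∀ y ∈ N, x * y = y * x) →
        BoundedFactors p m
          ((Subgroup.normalClosure (D : Set G)).map (QuotientGroup.mk' N)) →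
        ∃ i, IsMoritaEquivalent k hb.Alg (hc i).Alg :=
  T25_final k p n m

end Vale.Agent.Results.P180.NormalClosureFactors
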